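import Mathlib

/-!
# P207, part (2,2), quaternionic case: the universal certificate

helper871, notes #9495, #9584, #9671.  `n = 4m`, `d = 3`, `e = 4m - 4`.
`h` of type `(2,2)`, `|h| = 1`, divergence free, `b = |B h|^2`, `s = |X h|^2`, `a = s - b`,
Casimir eigenvalue `4(m+1)s - 16m - 48`.

The fields are `F1 = V X h`, `F2 = H h`, `F3 = H u`, `F4 = V w` (`V`, `H` the parts for the simple
root), `u = A A h`, `w = A A A h`; `Jij = <F_i, (1 - X^2) F_j>`, `c1 = <Z, F1>`, `c2 = <Z, F2>`.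
-/

namespace Vale.Agent.P207.H871.CertS2

noncomputable section

/-- `|A A h|^2 / |A h|^2`. -/
def r3 (m s b : ℝ) : ℝ := (7 * (m + 1) * s - 6 * (m + 1) * b + 14 * m + 42) / (2 * (2 * m + 3))
/-- `|B A h|^2 / |A h|^2`. -/
def t3 (m s b : ℝ) : ℝ := ((m - 1) * (s - 6) + 2 * (m + 2) * b) / (2 * (2 * m + 3))
/-- `|A u|^2 / |u|^2`. -/
def r4 (m s b : ℝ) : ℝ := (12 * (m + 1) * s - 9 * (m + 1) * b + 48 * m + 168) / (5 * (m + 2))
/-- `|B u|^2 / |u|^2`. -/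
def t4 (m s b : ℝ) : ℝ :=
  (m + 1) * (7 * (m - 1) * (s - 6) + 6 * (m + 4) * b) / (10 * (2 * m + 3) * (m + 2))
/-- `|A w|^2 / |w|^2`. -/
def r5 (m s b : ℝ) : ℝ := (6 * (m + 1) * s - 4 * (m + 1) * b + 36 * m + 144) / (2 * m + 5)
/-- `|B w|^2 / |w|^2`. -/
def t5 (m s b : ℝ) : ℝ :=
  (m + 1) * (4 * (m - 1) * (s - 6) + (2 * m + 13) * b) / (5 * (m + 2) * (2 * m + 5))
/-- `e`, the dimension of the root space of the simple root. -/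
def e (m : ℝ) : ℝ := 4 * m - 4
/-- `(2p+n-4)/(2p+n)` for `p = 3, 4, 5`. -/
def k3 (m : ℝ) : ℝ := (2 * m + 1) / (2 * m + 3)
def k4 (m : ℝ) : ℝ := (m + 1) / (m + 2)
def k5 (m : ℝ) : ℝ := (2 * m + 3) / (2 * m + 5)
def al3 (m s : ℝ) : ℝ := (4 * m * s + 4 * m + 3 * s + 24) / (2 * m + 3)
def al1 (m s : ℝ) : ℝ := (4 * m * s + 4 * m + 3 * s - 12) / (2 * m + 3)
/-- `|X^2 h|^2 = s^2 + al3 a + al1 b`. -/
def M2 (m s b : ℝ) : ℝ := s ^ 2 + al3 m s * (s - b) + al1 m s * b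
def W1 (m s b : ℝ) : ℝ := 3 * e m * (s - b) + 12 * m * b
def V1 (m s b : ℝ) : ℝ := -3 * e m * (s - b) * (al3 m s + s) - 12 * m * b * (al1 m s + s)
def W2 (m s b : ℝ) : ℝ :=
  -(2 * e m * M2 m s b + 4 * V1 m s b + 8 * e m * s - 4 * W1 m s b) / 3
/-- `R = |u|^2`. -/
def R (m s b : ℝ) : ℝ := (s - b) * r3 m s b
/-- `U = |H u|^2 / R`. -/
def U (m s b : ℝ) : ℝ :=
  e m * r4 m s b + (e m + 20) * t4 m s b - e m * r3 m s b - 4 * e m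
/-- `|A B u|^2 / R`. -/
def q4 (m s b : ℝ) : ℝ :=
  (147 * (m - 1) * (m + 1) ^ 2 * s ^ 2 + 3 * (m + 1) * (29 * m ^ 2 + 255 * m + 226) * s * b
    - 294 * m ^ 3 * s - 162 * m ^ 3 * b ^ 2 + 1338 * m ^ 3 * b - 3528 * m ^ 3 + 1176 * m ^ 2 * s
    - 792 * m ^ 2 * b ^ 2 + 5808 * m ^ 2 * b - 12348 * m ^ 2 + 294 * m * s - 1098 * m * b ^ 2
    + 11082 * m * b + 3528 * m - 1176 * s - 468 * b ^ 2 + 6612 * b + 12348)
    / (100 * (m + 2) ^ 2 * (2 * m + 5))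

/-- Pairing `<Z, F1>`. -/
def c1 (m s : ℝ) : ℝ := e m * s
/-- Pairing `<Z, F2>` (the pairings with `F3`, `F4` vanish). -/
def c2 (m s b : ℝ) : ℝ := -e m * (s - 4) - 18 * b
def J11 (m s b : ℝ) : ℝ := W2 m s b - e m * M2 m s b
def J12 (m s b : ℝ) : ℝ := 2 * W1 m s b - (W2 m s b + V1 m s b - e m * M2 m s b) / 2
def J22 (m s b : ℝ) : ℝ :=
  W1 m s b - 3 * e m * s - e m * M2 m s b - V1 m s b - W2 m s b / 2
def J13 (m s b : ℝ) : ℝ :=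
  -6 * e m * R m s b - R m s b / 2 * (2 * e m * s + 12 * b
    - (2 * m + 3) / (m + 2) * (16 * t3 m s b + 4 * k3 m * b))
def J23 (m s b : ℝ) : ℝ := -(R m s b) * U m s b
def J33 (m s b : ℝ) : ℝ :=
  R m s b * (2 * e m * r4 m s b + (2 * e m + 20) * t4 m s b
    + (r4 m s b + t4 m s b + r3 m s b) * U m s b - 12 * r4 m s b * t5 m s b
    + 8 * q4 m s b - 4 * k5 m * r4 m s b * t4 m s b)
def J14 (m s b : ℝ) : ℝ := -3 * e m * R m s b * r4 m s b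
def J24 (m s b : ℝ) : ℝ := -e m * R m s b * r4 m s b
def J34 (m s b : ℝ) : ℝ :=
  R m s b * r4 m s b * (10 * e m + e m * (r4 m s b + t4 m s b + r3 m s b)
    - 12 * (t5 m s b + k5 m * t4 m s b))
def J44 (m s b : ℝ) : ℝ :=
  R m s b * r4 m s b * (5 * e m * r5 m s b + (5 * e m + 24) * t5 m s b + 3 * e m * r4 m s b)

/-- `2 <Z, Y> - <Y, (1 - X^2) Y>` for `Y = x1 F1 + x2 F2 + x3 F3 + x4 F4`. -/
def val (m s b x1 x2 x3 x4 : ℝ) : ℝ :=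
  2 * (c1 m s * x1 + c2 m s b * x2)
    - (J11 m s b * x1 ^ 2 + J22 m s b * x2 ^ 2 + J33 m s b * x3 ^ 2 + J44 m s b * x4 ^ 2
      + 2 * (J12 m s b * x1 * x2 + J13 m s b * x1 * x3 + J14 m s b * x1 * x4
        + J23 m s b * x2 * x3 + J24 m s b * x2 * x4 + J34 m s b * x3 * x4))

/-- The numerator of `val - e - e/20`. -/
def P (m s b : ℝ) : ℝ :=
  20286674 * m ^ 4 * s ^ 4 - 24357402 * m ^ 4 * s ^ 3 * b - 118652810 * m ^ 4 * s ^ 3 +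
  13106592 * m ^ 4 * s ^ 2 * b ^ 2 + 58791858 * m ^ 4 * s ^ 2 * b - 37031232 * m ^ 4 * s ^ 2 -
  6591672 * m ^ 4 * s * b ^ 3 + 23551056 * m ^ 4 * s * b ^ 2 - 127282128 * m ^ 4 * s * b +
  193242168 * m ^ 4 * s + 3755808 * m ^ 4 * b ^ 4 - 43690104 * m ^ 4 * b ^ 3 + 164313360 * m ^
  4 * b ^ 2 - 193242168 * m ^ 4 * b + 119520348 * m ^ 3 * s ^ 4 - 36369894 * m ^ 3 * s ^ 3 * b
  - 653071399 * m ^ 3 * s ^ 3 - 17649126 * m ^ 3 * s ^ 2 * b ^ 2 + 391026711 * m ^ 3 * s ^ 2 *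
  b - 497672196 * m ^ 3 * s ^ 2 - 40326984 * m ^ 3 * s * b ^ 3 + 269280540 * m ^ 3 * s * b ^ 2
  - 544337220 * m ^ 3 * s * b + 1087584372 * m ^ 3 * s + 45325656 * m ^ 3 * b ^ 4 - 371235852
  * m ^ 3 * b ^ 3 + 1042009416 * m ^ 3 * b ^ 2 - 1087584372 * m ^ 3 * b + 157247000 * m ^ 2 *
  s ^ 4 + 517388730 * m ^ 2 * s ^ 3 * b - 753407779 * m ^ 2 * s ^ 3 - 534210930 * m ^ 2 * s ^
  2 * b ^ 2 + 802759905 * m ^ 2 * s ^ 2 * b - 1172539032 * m ^ 2 * s ^ 2 + 76033080 * m ^ 2 *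
  s * b ^ 3 + 1457784018 * m ^ 2 * s * b ^ 2 - 1883768844 * m ^ 2 * s * b + 661044636 * m ^ 2
  * s + 113442120 * m ^ 2 * b ^ 4 - 1407636144 * m ^ 2 * b ^ 3 + 3056307876 * m ^ 2 * b ^ 2 -
  661044636 * m ^ 2 * b - 78120348 * m * s ^ 4 + 1383957534 * m * s ^ 3 * b + 372571399 * m *
  s ^ 3 - 963048114 * m * s ^ 2 * b ^ 2 + 2527925109 * m * s ^ 2 * b + 923552196 * m * s ^ 2 +
  246680424 * m * s * b ^ 3 + 1284578640 * m * s * b ^ 2 - 7076137740 * m * s * b - 2426157972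
  * m * s + 105930504 * m * b ^ 4 - 1876325148 * m * b ^ 3 + 6152585544 * m * b ^ 2 +
  2426157972 * m * b - 218933674 * s ^ 4 + 1043556312 * s ^ 3 * b + 1152560589 * s ^ 3 -
  459592902 * s ^ 2 * b ^ 2 + 2158650057 * s ^ 2 * b + 783690264 * s ^ 2 + 136912032 * s * b ^
  3 + 72524106 * s * b ^ 2 - 4757663988 * s * b + 484286796 * s + 34058232 * b ^ 4 - 796234752
  * b ^ 3 + 3973973724 * b ^ 2 - 484286796 * b

theorem P_eq (u t b : ℝ) : P (2 + u) (6 + 2 * b + t) b =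
    20286674 * u ^ 4 * t ^ 4 + 137935990 * u ^ 4 * t ^ 3 * b + 368227366 * u ^ 4 * t ^ 3 +
    353842356 * u ^ 4 * t ^ 2 * b ^ 2 + 1829722818 * u ^ 4 * t ^ 2 * b + 2209139772 * u ^ 4 *
    t ^ 2 + 402719440 * u ^ 4 * t * b ^ 3 + 3080993040 * u ^ 4 * t * b ^ 2 + 6784179840 * u ^
    4 * t * b + 4462050240 * u ^ 4 * t + 172726400 * u ^ 4 * b ^ 4 + 1705673600 * u ^ 4 * b ^
    3 + 5509257600 * u ^ 4 * b ^ 2 + 4822473600 * u ^ 4 * b + 488851200 * u ^ 4 + 281813740 *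
    u ^ 3 * t ^ 4 + 2023280810 * u ^ 3 * t ^ 3 * b + 5161235881 * u ^ 3 * t ^ 3 + 5463358710 *
    u ^ 3 * t ^ 2 * b ^ 2 + 27666652881 * u ^ 3 * t ^ 2 * b + 31236555966 * u ^ 3 * t ^ 2 +
    6499044440 * u ^ 3 * t * b ^ 3 + 50235913260 * u ^ 3 * t * b ^ 2 + 108747224640 * u ^ 3 *
    t * b + 63545789520 * u ^ 3 * t + 2897252800 * u ^ 3 * b ^ 4 + 29815983200 * u ^ 3 * b ^ 3
    + 100790205600 * u ^ 3 * b ^ 2 + 96146020800 * u ^ 3 * b + 6355065600 * u ^ 3 + 1361249264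
    * u ^ 2 * t ^ 4 + 10604585830 * u ^ 2 * t ^ 3 * b + 25150478723 * u ^ 2 * t ^ 3 +
    30631985166 * u ^ 2 * t ^ 2 * b ^ 2 + 150325448025 * u ^ 2 * t ^ 2 * b + 153631454214 * u
    ^ 2 * t ^ 2 + 38508758200 * u ^ 2 * t * b ^ 3 + 299228170290 * u ^ 2 * t * b ^ 2 +
    630216256320 * u ^ 2 * t * b + 315269475480 * u ^ 2 * t + 18021809600 * u ^ 2 * b ^ 4 +
    191729990800 * u ^ 2 * b ^ 3 + 669271027200 * u ^ 2 * b ^ 2 + 671996311200 * u ^ 2 * b +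
    29208859200 * u ^ 2 + 2634285396 * u * t ^ 4 + 23311920030 * u * t ^ 3 * b + 48948043079 *
    u * t ^ 3 + 73756400274 * u * t ^ 2 * b ^ 2 + 346278346707 * u * t ^ 2 * b + 301135460178
    * u * t ^ 2 + 99435648840 * u * t * b ^ 3 + 774130340040 * u * t * b ^ 2 + 1568741830560 *
    u * t * b + 622712234160 * u * t + 49416283200 * u * b ^ 4 + 540507587200 * u * b ^ 3 +
    1931564333400 * u * b ^ 2 + 2001258010800 * u * b + 54140270400 * u + 1534563198 * t ^ 4 +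
    17476854300 * t ^ 3 * b + 28590572871 * t ^ 3 + 63577588662 * t ^ 2 * b ^ 2 + 279644137425
    * t ^ 2 * b + 176531422158 * t ^ 2 + 94200447960 * t * b ^ 3 + 733045309290 * t * b ^ 2 +
    1408860203040 * t * b + 366526497960 * t + 50474750400 * b ^ 4 + 565428229200 * b ^ 3 +
    2056742721000 * b ^ 2 + 2171041498800 * b + 30797625600 := by
  simp only [P]; ring

theorem P_pos {m s b : ℝ} (hm : 2 ≤ m) (hb : 0 ≤ b) (hs : 6 + 2 * b ≤ s) : 0 < P m s b := by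
  obtain ⟨u, rfl⟩ : ∃ u, m = 2 + u := ⟨m - 2, by ring⟩
  obtain ⟨t, rfl⟩ : ∃ t, s = 6 + 2 * b + t := ⟨s - (6 + 2 * b), by ring⟩
  have hu : 0 ≤ u := by linarith
  have ht : 0 ≤ t := by linarith
  rw [P_eq]
  positivity

end

end Vale.Agent.P207.H871.CertS2
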